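import Vale.Agent.P067.Alld.Stmt
import Vale.Agent.P067.Alld.A.Roots
import Vale.Agent.P067.Alld.A.Quot

/-!
P067, module F: the rank two links are incidence graphs of affine planes or complete bipartite
graphs, and their second eigenvalue is at most `p ^ (-1/2)`.
-/

namespace Vale.Agent.P067.Alld.RankTwo

open Finset

section Estimate

variable {K : Type} [Field K] [Fintype K]

/-- The operator summing over the lines through a point is small on functions of sum zero. -/
lemma sum_sq_line_le (ψ : K → K → ℝ) (h0 : ∑ b, ∑ c, ψ b c = 0) :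
    ∑ x, ∑ c, (∑ b, ψ b (c - b * x)) ^ 2 ≤ Fintype.card K * ∑ b, ∑ c, ψ b c ^ 2 := by
  classical
  let s : K → ℝ := fun b => ∑ c, ψ b c
  let A : K → K → ℝ := fun b b' => ∑ x, ∑ c, ψ b (c - b * x) * ψ b' (c - b' * x)
  have hexp : ∑ x, ∑ c, (∑ b, ψ b (c - b * x)) ^ 2 = ∑ b, ∑ b', A b b' := by
    simp only [sq, sum_mul_sum, A]
    rw [sum_congr rfl fun x _ => sum_comm, sum_comm]
    refine sum_congr rfl fun b _ => ?_
    rw [sum_congr rfl fun x _ => sum_comm, sum_comm]
  have hne : ∀ b b', b ≠ b' → A b b' = s b * s b' := fun b b' hb => by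
    have hbij : Function.Bijective fun q : K × K => (q.2 - b * q.1, q.2 - b' * q.1) := by
      refine Finite.injective_iff_bijective.1 ?_
      rintro ⟨x, c⟩ ⟨x', c'⟩ h
      simp only [Prod.mk.injEq] at h
      have hx : (b' - b) * (x - x') = 0 := by linear_combination h.1 - h.2
      obtain rfl : x = x' :=
        sub_eq_zero.1 ((mul_eq_zero.1 hx).resolve_left (sub_ne_zero.2 hb.symm))
      exact Prod.ext rfl (by linear_combination h.1)
    simp only [A, s, sum_mul_sum]
    rw [← Fintype.sum_prod_type', ← Fintype.sum_prod_type']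
    exact Fintype.sum_bijective _ hbij _ _ fun q => rfl
  have heq : ∀ b, A b b = Fintype.card K * ∑ c, ψ b c ^ 2 := fun b => by
    simp only [A, ← sq]
    rw [sum_congr rfl fun x _ => show ∑ c, ψ b (c - b * x) ^ 2 = ∑ c, ψ b c ^ 2 from
      (Equiv.subRight (b * x)).sum_comp fun c => ψ b c ^ 2]
    simp
  have hrow : ∀ b, ∑ b', A b b' =
      Fintype.card K * ∑ c, ψ b c ^ 2 - s b ^ 2 + s b * ∑ b', s b' := fun b => by
    have h1 : ∑ b', A b b' = A b b + ∑ b' ∈ univ.erase b, A b b' :=
      (add_sum_erase _ _ (mem_univ b)).symm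
    have h2 : ∑ b', s b * s b' = s b * s b + ∑ b' ∈ univ.erase b, s b * s b' :=
      (add_sum_erase _ _ (mem_univ b)).symm
    rw [sum_congr rfl fun b' hb' => hne b b' (ne_of_mem_erase hb').symm] at h1
    rw [← mul_sum] at h2
    rw [h1, heq]
    linear_combination -h2
  rw [hexp, sum_congr rfl fun b _ => hrow b]
  simp only [s, h0, mul_zero, add_zero, sum_sub_distrib, ← mul_sum]
  have : 0 ≤ ∑ b, (∑ c, ψ b c) ^ 2 := sum_nonneg fun _ _ => sq_nonneg _
  linarith

/-- The estimate in the coordinates of the Heisenberg group. -/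
lemma sum_heis_le {lam : ℝ} (hlam : 0 < lam) (hq : 1 ≤ lam ^ 2 * Fintype.card K)
    (φ ψ : K → K → ℝ) (h0 : ∑ b, ∑ c, ψ b c = 0) :
    ∑ x, ∑ b, ∑ c, φ x c * ψ b (c - b * x) ≤
      lam * (Fintype.card K * ∑ x, ∑ c, φ x c ^ 2 + Fintype.card K * ∑ b, ∑ c, ψ b c ^ 2) / 2 := by
  set q : ℝ := ((Fintype.card K : ℕ) : ℝ) with hqdef
  have hq0 : 0 < q := Nat.cast_pos.2 Fintype.card_pos
  set T : K → K → ℝ := fun x c => ∑ b, ψ b (c - b * x)
  have h1 : ∑ x, ∑ b, ∑ c, φ x c * ψ b (c - b * x) = ∑ x, ∑ c, φ x c * T x c := by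
    refine sum_congr rfl fun x _ => ?_
    rw [sum_comm]
    exact sum_congr rfl fun c _ => (mul_sum _ _ _).symm
  have h2 : ∀ x c, φ x c * T x c ≤ lam * q / 2 * φ x c ^ 2 + T x c ^ 2 / (2 * (lam * q)) := by
    intro x c
    have := two_mul_le_add_sq (lam * q * φ x c) (T x c)
    have hlq : 0 < lam * q := mul_pos hlam hq0
    rw [div_mul_eq_mul_div, div_add_div _ _ two_ne_zero (by positivity), le_div_iff₀ (by positivity)]
    nlinarith
  rw [h1]
  refine (sum_le_sum fun x _ => sum_le_sum fun c _ => h2 x c).trans ?_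
  simp only [sum_add_distrib, ← mul_sum, ← sum_div]
  have h3 := sum_sq_line_le ψ h0
  have h4 : (∑ x, ∑ c, T x c ^ 2) / (2 * (lam * q)) ≤ lam * (q * ∑ b, ∑ c, ψ b c ^ 2) / 2 := by
    rw [div_le_iff₀ (by positivity)]
    have h5 : 0 ≤ ∑ b, ∑ c, ψ b c ^ 2 := sum_nonneg fun _ _ => sum_nonneg fun _ _ => sq_nonneg _
    have h6 : (∑ b, ∑ c, ψ b c ^ 2) * q ≤ (∑ b, ∑ c, ψ b c ^ 2) * q * (lam ^ 2 * q) :=
      le_mul_of_one_le_right (by positivity) hq
    nlinarith [h3]
  linarith

/-- The two kinds of rank two links at once, for coordinates on a group. -/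
lemma sum_coord_le {L : Type} [Fintype L] {lam : ℝ} (hlam : 0 < lam)
    (hq : 1 ≤ lam ^ 2 * Fintype.card K) (e : K × K × K → L) (he : Function.Bijective e)
    (f g : L → ℝ) (hf : ∀ x b c, f (e (x, b, c)) = f (e (x, 0, c)))
    (hg : ∀ x b c, g (e (x, b, c)) = g (e (0, b, c - b * x))) (hg0 : ∑ u, g u = 0) :
    ∑ u, f u * g u ≤ lam * (∑ u, f u ^ 2 + ∑ u, g u ^ 2) / 2 := by
  have hsum : ∀ h : L → ℝ, ∑ u, h u = ∑ x, ∑ b, ∑ c, h (e (x, b, c)) := fun h => by
    rw [← Fintype.sum_bijective e he (fun v => h (e v)) h fun v => rfl, Fintype.sum_prod_type]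
    exact sum_congr rfl fun x _ => Fintype.sum_prod_type _
  set φ : K → K → ℝ := fun x c => f (e (x, 0, c))
  set ψ : K → K → ℝ := fun b c => g (e (0, b, c))
  have hsh : ∀ (h : K → K → ℝ), ∑ x, ∑ b, ∑ c, h b (c - b * x) =
      Fintype.card K * ∑ b, ∑ c, h b c := fun h => by
    rw [sum_congr rfl fun x _ => sum_congr rfl fun b _ =>
      show ∑ c, h b (c - b * x) = ∑ c, h b c from (Equiv.subRight (b * x)).sum_comp (h b)]
    simp
  have e1 : ∑ u, f u * g u = ∑ x, ∑ b, ∑ c, φ x c * ψ b (c - b * x) := by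
    rw [hsum]
    refine sum_congr rfl fun x _ => sum_congr rfl fun b _ => sum_congr rfl fun c _ => ?_
    rw [hf x b c, hg x b c]
  have e2 : ∑ u, f u ^ 2 = Fintype.card K * ∑ x, ∑ c, φ x c ^ 2 := by
    rw [hsum, mul_sum]
    refine sum_congr rfl fun x _ => ?_
    rw [sum_congr rfl fun b _ => sum_congr rfl fun c _ => congrArg (· ^ 2) (hf x b c)]
    simp [φ]
  have e3 : ∑ u, g u ^ 2 = Fintype.card K * ∑ b, ∑ c, ψ b c ^ 2 := by
    rw [hsum, ← hsh fun b c => ψ b c ^ 2]
    simp only [ψ, ← hg]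
  have e4 : ∑ b, ∑ c, ψ b c = 0 := by
    have h : (Fintype.card K : ℝ) * ∑ b, ∑ c, ψ b c = 0 := by
      rw [← hsh ψ, ← hg0, hsum]
      simp only [ψ, ← hg]
    exact (mul_eq_zero.1 h).resolve_left (by exact_mod_cast Fintype.card_ne_zero)
  rw [e1, e2, e3]
  exact sum_heis_le hlam hq φ ψ e4

lemma sum_split_eq_zero {L : Type} [Fintype L] (e : K × K → L) (he : Function.Bijective e)
    (f g : L → ℝ) (hf : ∀ x b, f (e (x, b)) = f (e (x, 0)))
    (hg : ∀ x b, g (e (x, b)) = g (e (0, b))) (hg0 : ∑ u, g u = 0) :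
    ∑ u, f u * g u = 0 := by
  have hsum : ∀ h : L → ℝ, ∑ u, h u = ∑ x, ∑ b, h (e (x, b)) := fun h => by
    rw [← Fintype.sum_bijective e he (fun v => h (e v)) h fun v => rfl, Fintype.sum_prod_type]
  have h0 : ∑ b, g (e (0, b)) = 0 := by
    rw [hsum] at hg0
    simp only [hg] at hg0
    simpa [Fintype.card_ne_zero] using hg0
  rw [hsum, sum_congr rfl fun x _ => sum_congr rfl fun b _ =>
    show f (e (x, b)) * g (e (x, b)) = f (e (x, 0)) * g (e (0, b)) by rw [← hf, ← hg]]
  simp [← mul_sum, h0]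

end Estimate

section Groups

variable {F : Type} [Field F] {n : ℕ} {R : Type} [CommRing R] [Algebra F R] {t : R}
variable {E : Finset (Fin n)} {a b : Fin n}

lemma below_two (hn : 3 ≤ n) {y z : Fin n} (h : Below ((univ.erase y).erase z) b a) :
    (b = y ∨ b = z) ∧ (a = succC b ∨ ((succC b = y ∨ succC b = z) ∧ a = succC (succC b))) := by
  have hm : ∀ w, w ∉ (univ.erase y).erase z → w = y ∨ w = z := fun w hw => by
    by_contra h'
    rw [not_or] at h'
    simp [h'.1, h'.2] at hw
  have step : ∀ w : Fin n, Below ((univ.erase y).erase z) w a → a ≠ succC w →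
      succC w ∉ (univ.erase y).erase z := fun w hw hne hmem => by
    have h1 := Fin.lt_def.1 (hw _ hmem)
    have hs : w ≠ succC w := (succC_ne (by omega) w).symm
    have h2 := rot_succC (l := succC w) hs
    have h3 := Fin.val_ne_of_ne ((rot_injective (succC w)).ne hne)
    rw [rot_self] at h2 h3
    have := (rot (succC w) a).isLt
    omega
  refine ⟨hm b h.notMem, ?_⟩
  by_cases h1 : a = succC b
  · exact Or.inl h1
  refine Or.inr ⟨hm _ (step b h h1), ?_⟩
  by_contra h2
  have h' : Below ((univ.erase y).erase z) (succC b) a := fun l hl => by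
    have e1 := Fin.lt_def.1 (h l hl)
    have e2 := Fin.val_ne_of_ne ((rot_injective l).ne h1)
    have hbl : b ≠ l := fun e => h.notMem (e ▸ hl)
    rw [Fin.lt_def]
    rw [rot_succC hbl] at e2 ⊢
    omega
  have hs := step _ h' h2
  have d1 : succC b ≠ b := succC_ne (by omega) b
  have d2 : succC (succC b) ≠ succC b := succC_ne (by omega) _
  have d3 : succC (succC b) ≠ b := fun e => by
    have := congrArg Fin.val e
    rw [succC_val, succC_val] at this
    split_ifs at this <;> omega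
  rcases hm b h.notMem with e | e <;> rcases hm _ (step b h h1) with e' | e' <;>
    rcases hm _ hs with e'' | e'' <;> simp_all

/-- The matrix with entries `x, u, c` at the three positions. -/
def heis (y z w : Fin n) (v : F × F × F) : Matrix (Fin n) (Fin n) F :=
  1 + Matrix.single z y v.1 + Matrix.single w z v.2.1 + Matrix.single w y v.2.2

lemma heis_mul {y z w : Fin n} (hyz : y ≠ z) (hwy : w ≠ y) (hzw : z ≠ w) (v v' : F × F × F) :
    heis y z w v * heis y z w v' =
      heis y z w (v.1 + v'.1, v.2.1 + v'.2.1, v.2.2 + v'.2.2 + v.2.1 * v'.1) := by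
  simp only [heis, add_mul, mul_add, one_mul, mul_one, Matrix.single_mul_single_same,
    Matrix.single_mul_single_of_ne _ _ _ _ hyz, Matrix.single_mul_single_of_ne _ _ _ _ hwy.symm,
    Matrix.single_mul_single_of_ne _ _ _ _ hzw, Matrix.single_mul_single_of_ne _ _ _ _ hzw.symm,
    Matrix.single_mul_single_of_ne _ _ _ _ hyz.symm, Matrix.single_mul_single_of_ne _ _ _ _ hwy,
    Matrix.single_add, add_zero, zero_add]
  abel

/-- The matrix with entries `x, u` at two commuting positions. -/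
def diam (y y' z z' : Fin n) (v : F × F) : Matrix (Fin n) (Fin n) F :=
  1 + Matrix.single y' y v.1 + Matrix.single z' z v.2

lemma diam_mul {y y' z z' : Fin n} (hy : y ≠ y') (hz : z ≠ z') (h : y ≠ z') (h' : z ≠ y')
    (v v' : F × F) :
    diam y y' z z' v * diam y y' z z' v' = diam y y' z z' (v.1 + v'.1, v.2 + v'.2) := by
  simp only [diam, add_mul, mul_add, one_mul, mul_one, Matrix.single_mul_single_of_ne _ _ _ _ hy,
    Matrix.single_mul_single_of_ne _ _ _ _ hz, Matrix.single_mul_single_of_ne _ _ _ _ h,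
    Matrix.single_mul_single_of_ne _ _ _ _ h', Matrix.single_add, add_zero, zero_add]
  abel

variable (R t) in
/-- The element of `Gam` of a pattern. -/
def gel {c : Matrix (Fin n) (Fin n) F} (hE : E.Nonempty) (hc : Pat E c) : Gam F n R t :=
  ⟨hc.toSL R t hE, Pat.toSL_mem_Gam hE hc⟩

lemma gel_mem (ht : t ≠ 0) {c : Matrix (Fin n) (Fin n) F} (hE : E.Nonempty) (hc : Pat E c) :
    gel R t hE hc ∈ inter (hyp F n R t) E :=
  (mem_inter_hyp_iff ht hE _).2 ⟨c, hc, rfl⟩

lemma gel_mem_erase (hn : 2 ≤ n) (hE : E.Nonempty) (z : Fin n) (x : F)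
    (hc : Pat E (1 + Matrix.single (succC z) z x)) :
    gel R t hE hc ∈ inter (hyp F n R t) (univ.erase z) := by
  refine mem_inter.2 fun l hl => Subgroup.mem_subgroupOf.2 ?_
  have e : ((gel R t hE hc : Gam F n R t) : Matrix.SpecialLinearGroup (Fin n) R) =
      sroot F t hn z x := Subtype.ext (relem_coe (succC_ne hn z) x).symm
  rw [e]
  exact sroot_mem_loc hn (ne_of_mem_erase hl).symm x

lemma gel_mul {c c' d : Matrix (Fin n) (Fin n) F} (hE : E.Nonempty) (hc : Pat E c)
    (hc' : Pat E c') (hd : Pat E d) (h : c * c' = d) :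
    gel R t hE hc * gel R t hE hc' = gel R t hE hd := by
  subst h
  exact Subtype.ext (Subtype.ext (hc.patMat_mul hE hc'))

lemma sum_inter_eq {G : Type} [Group G] [Fintype G] (K : Subgroup G) [Fintype K] (h : G → ℝ) :
    ∑ a, ∑ u : K, h (a * (u : G)) = Fintype.card K * ∑ a, h a := by
  rw [sum_comm, sum_congr rfl fun (u : K) _ =>
    show ∑ a, h (a * (u : G)) = ∑ a, h a from Equiv.sum_comp (Equiv.mulRight (u : G)) h]
  simp

lemma succC_succC_ne (hn : 3 ≤ n) (v : Fin n) : succC (succC v) ≠ v := fun e => by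
  have := congrArg Fin.val e
  rw [succC_val, succC_val] at this
  split_ifs at this <;> omega

lemma heis_apply_of_ne {y z w i j : Fin n} (hij : i ≠ j) (v : F × F × F) :
    heis y z w v i j = (if z = i ∧ y = j then v.1 else 0) + (if w = i ∧ z = j then v.2.1 else 0) +
      (if w = i ∧ y = j then v.2.2 else 0) := by
  simp [heis, Matrix.single_apply, hij]

lemma heis_apply_self {y z w : Fin n} (hyz : y ≠ z) (hwy : w ≠ y) (hzw : z ≠ w) (i : Fin n)
    (v : F × F × F) : heis y z w v i i = 1 := by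
  simp only [heis, Matrix.add_apply, Matrix.one_apply_eq]
  rw [Matrix.single_apply_of_ne (h := fun h => hyz (h.2.trans h.1.symm)),
    Matrix.single_apply_of_ne (h := fun h => hzw (h.2.trans h.1.symm)),
    Matrix.single_apply_of_ne (h := fun h => hwy (h.1.trans h.2.symm))]
  simp

variable [Fintype F]

lemma coset_adjacent (hn : 4 ≤ n) (ht : t ≠ 0) {lam : ℝ} (hlam : 0 < lam)
    (hq : 1 ≤ lam ^ 2 * Fintype.card F) {y z : Fin n} (hyz : y ≠ z) (hadj : z = succC y)
    (hEeq : E = (univ.erase y).erase z) [Fintype (inter (hyp F n R t) E)]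
    (f g : Gam F n R t → ℝ)
    (hf : ∀ a, ∀ u ∈ inter (hyp F n R t) (univ.erase z), f (a * u) = f a)
    (hg : ∀ a, ∀ u ∈ inter (hyp F n R t) (univ.erase y), g (a * u) = g a)
    (a : Gam F n R t)
    (hg0 : ∑ u : inter (hyp F n R t) E, g (a * (u : Gam F n R t)) = 0) :
    ∑ u : inter (hyp F n R t) E, f (a * (u : Gam F n R t)) * g (a * (u : Gam F n R t)) ≤
      lam * (∑ u : inter (hyp F n R t) E, f (a * (u : Gam F n R t)) ^ 2 +
        ∑ u : inter (hyp F n R t) E, g (a * (u : Gam F n R t)) ^ 2) / 2 := by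
  classical
  have hn2 : 2 ≤ n := by omega
  have hy : y ∉ E := by simp [hEeq]
  have hz : z ∉ E := by simp [hEeq]
  have hE : E.Nonempty := card_pos.1 (by
    rw [hEeq, card_erase_of_mem (mem_erase.2 ⟨hyz.symm, mem_univ _⟩),
      card_erase_of_mem (mem_univ _), card_univ, Fintype.card_fin]
    omega)
  obtain ⟨w, hw⟩ : ∃ w, w = succC z := ⟨_, rfl⟩
  have hzy : Below E y z := hadj.symm ▸ below_succC hy
  have hwz : Below E z w := hw.symm ▸ below_succC hz
  have hwy : w ≠ y := by rw [hw, hadj]; exact succC_succC_ne (by omega) y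
  have hzw : z ≠ w := hw ▸ (succC_ne hn2 z).symm
  have hwy' : Below E y w := hzy.trans hwz
  have hpat : ∀ v : F × F × F, Pat E (heis y z w v) := fun v => by
    refine ⟨fun i => heis_apply_self hyz hwy hzw i v, fun i j hij hb => ?_⟩
    rw [heis_apply_of_ne hij, if_neg, if_neg, if_neg]
    · simp
    · rintro ⟨rfl, rfl⟩; exact hb hwy'
    · rintro ⟨rfl, rfl⟩; exact hb hwz
    · rintro ⟨rfl, rfl⟩; exact hb hzy
  let e : F × F × F → inter (hyp F n R t) E := fun v =>
    ⟨gel R t hE (hpat v), gel_mem ht hE _⟩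
  have he : Function.Bijective e := by
    refine ⟨fun v v' h => ?_, fun u => ?_⟩
    · have hh : heis y z w v = heis y z w v' :=
        patMat_inj ht (congrArg (fun u : inter (hyp F n R t) E => u.1.1.1) h)
      have e1 := congrFun (congrFun hh z) y
      have e2 := congrFun (congrFun hh w) z
      have e3 := congrFun (congrFun hh w) y
      simp [heis_apply_of_ne hyz.symm, hyz, hzw.symm] at e1
      simp [heis_apply_of_ne hzw.symm, hyz, hzw] at e2
      simp [heis_apply_of_ne hwy, hyz.symm, hzw] at e3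
      exact Prod.ext e1 (Prod.ext e2 e3)
    · obtain ⟨c, hc, hu⟩ := (mem_inter_hyp_iff ht hE u.1).1 u.2
      refine ⟨(c z y, c w z, c w y), Subtype.ext (Subtype.ext (Subtype.ext ?_))⟩
      rw [hu]
      refine congrArg (patMat R t) ?_
      funext i j
      rcases eq_or_ne i j with rfl | hij
      · rw [heis_apply_self hyz hwy hzw, hc.1]
      rw [heis_apply_of_ne hij]
      by_cases h1 : z = i ∧ y = j
      · obtain ⟨rfl, rfl⟩ := h1
        simp [hyz, hzw.symm]
      by_cases h2 : w = i ∧ z = j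
      · obtain ⟨rfl, rfl⟩ := h2
        simp [hyz, hzw]
      by_cases h3 : w = i ∧ y = j
      · obtain ⟨rfl, rfl⟩ := h3
        simp [hyz.symm, hzw]
      rw [if_neg h1, if_neg h2, if_neg h3, hc.2 i j hij fun hb => ?_]
      · simp
      obtain ⟨hj, hi⟩ := below_two (by omega) (hEeq ▸ hb)
      rcases hj with rfl | rfl
      · rcases hi with hi | ⟨-, hi⟩
        · exact h1 ⟨by rw [hi, hadj], rfl⟩
        · exact h3 ⟨by rw [hi, hw, hadj], rfl⟩
      · rcases hi with hi | ⟨hi, -⟩
        · exact h2 ⟨by rw [hi, hw], rfl⟩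
        · rw [← hw] at hi
          exact hi.elim hwy hzw.symm
  refine sum_coord_le hlam hq e he _ _ (fun x b c => ?_) (fun x b c => ?_) hg0
  · have hp : Pat E (1 + Matrix.single (succC z) z b) := by
      have h := hpat (0, b, 0)
      simpa [heis, hw] using h
    show f (a * gel R t hE (hpat (x, b, c))) = f (a * gel R t hE (hpat (x, 0, c)))
    rw [← gel_mul hE (hpat (x, 0, c)) hp (hpat (x, b, c)), ← mul_assoc,
      hf _ _ (gel_mem_erase hn2 hE z b hp)]
    simpa [heis, ← hw] using heis_mul hyz hwy hzw (x, 0, c) ((0 : F), b, (0 : F))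
  · have hp : Pat E (1 + Matrix.single (succC y) y x) := by
      have h := hpat (x, 0, 0)
      simpa [heis, hadj] using h
    show g (a * gel R t hE (hpat (x, b, c))) = g (a * gel R t hE (hpat (0, b, c - b * x)))
    rw [← gel_mul hE (hpat (0, b, c - b * x)) hp (hpat (x, b, c)), ← mul_assoc,
      hg _ _ (gel_mem_erase hn2 hE y x hp)]
    simpa [heis, ← hadj] using heis_mul hyz hwy hzw ((0 : F), b, c - b * x) (x, (0 : F), (0 : F))

lemma coset_apart (hn : 4 ≤ n) (ht : t ≠ 0) {y z : Fin n} (hyz : y ≠ z) (hadj : z ≠ succC y)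
    (hadj' : y ≠ succC z) (hEeq : E = (univ.erase y).erase z)
    [Fintype (inter (hyp F n R t) E)] (f g : Gam F n R t → ℝ)
    (hf : ∀ a, ∀ u ∈ inter (hyp F n R t) (univ.erase z), f (a * u) = f a)
    (hg : ∀ a, ∀ u ∈ inter (hyp F n R t) (univ.erase y), g (a * u) = g a)
    (a : Gam F n R t)
    (hg0 : ∑ u : inter (hyp F n R t) E, g (a * (u : Gam F n R t)) = 0) :
    ∑ u : inter (hyp F n R t) E, f (a * (u : Gam F n R t)) * g (a * (u : Gam F n R t)) = 0 := by
  classical
  have hn2 : 2 ≤ n := by omega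
  have hy : y ∉ E := by simp [hEeq]
  have hz : z ∉ E := by simp [hEeq]
  have hE : E.Nonempty := card_pos.1 (by
    rw [hEeq, card_erase_of_mem (mem_erase.2 ⟨hyz.symm, mem_univ _⟩),
      card_erase_of_mem (mem_univ _), card_univ, Fintype.card_fin]
    omega)
  set y' := succC y with hy'
  set z' := succC z with hz'
  have hyy : y ≠ y' := (succC_ne hn2 y).symm
  have hzz : z ≠ z' := (succC_ne hn2 z).symm
  have hself : ∀ i v, diam (F := F) y y' z z' v i i = 1 := fun i v => by
    simp only [diam, Matrix.add_apply, Matrix.one_apply_eq]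
    rw [Matrix.single_apply_of_ne (h := fun h => hyy (h.2.trans h.1.symm)),
      Matrix.single_apply_of_ne (h := fun h => hzz (h.2.trans h.1.symm))]
    simp
  have happ : ∀ i j v, i ≠ j → diam (F := F) y y' z z' v i j =
      (if y' = i ∧ y = j then v.1 else 0) + (if z' = i ∧ z = j then v.2 else 0) :=
    fun i j v hij => by simp [diam, Matrix.single_apply, hij]
  have hpat : ∀ v, Pat E (diam (F := F) y y' z z' v) := fun v => by
    refine ⟨fun i => hself i v, fun i j hij hb => ?_⟩
    rw [happ i j v hij, if_neg, if_neg]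
    · simp
    · rintro ⟨rfl, rfl⟩; exact hb (below_succC hz)
    · rintro ⟨rfl, rfl⟩; exact hb (below_succC hy)
  let e : F × F → inter (hyp F n R t) E := fun v => ⟨gel R t hE (hpat v), gel_mem ht hE _⟩
  have he : Function.Bijective e := by
    refine ⟨fun v v' h => ?_, fun u => ?_⟩
    · have hh : diam y y' z z' v = diam y y' z z' v' :=
        patMat_inj ht (congrArg (fun u : inter (hyp F n R t) E => u.1.1.1) h)
      have e1 := congrFun (congrFun hh y') y
      have e2 := congrFun (congrFun hh z') z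
      simp [happ _ _ _ hyy.symm, hyz.symm] at e1
      simp [happ _ _ _ hzz.symm, hyz] at e2
      exact Prod.ext e1 e2
    · obtain ⟨c, hc, hu⟩ := (mem_inter_hyp_iff ht hE u.1).1 u.2
      refine ⟨(c y' y, c z' z), Subtype.ext (Subtype.ext (Subtype.ext ?_))⟩
      rw [hu]
      refine congrArg (patMat R t) ?_
      funext i j
      rcases eq_or_ne i j with rfl | hij
      · rw [hself, hc.1]
      rw [happ i j _ hij]
      by_cases h1 : y' = i ∧ y = j
      · obtain ⟨rfl, rfl⟩ := h1
        simp [hyz.symm]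
      by_cases h2 : z' = i ∧ z = j
      · obtain ⟨rfl, rfl⟩ := h2
        simp [hyz]
      rw [if_neg h1, if_neg h2, hc.2 i j hij fun hb => ?_]
      · simp
      obtain ⟨hj, hi⟩ := below_two (by omega) (hEeq ▸ hb)
      rcases hj with rfl | rfl
      · rcases hi with hi | ⟨hi, -⟩
        · exact h1 ⟨by rw [hi], rfl⟩
        · exact hi.elim hyy.symm hadj.symm
      · rcases hi with hi | ⟨hi, -⟩
        · exact h2 ⟨by rw [hi], rfl⟩
        · exact hi.elim hadj'.symm hzz.symm
  have hmul := diam_mul (F := F) hyy hzz hadj' hadj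
  refine sum_split_eq_zero e he _ _ (fun x b => ?_) (fun x b => ?_) hg0
  · have hp : Pat E (1 + Matrix.single (succC z) z b) := by
      simpa [diam, ← hz'] using hpat (0, b)
    show f (a * gel R t hE (hpat (x, b))) = f (a * gel R t hE (hpat (x, 0)))
    rw [← gel_mul hE (hpat (x, 0)) hp (hpat (x, b)), ← mul_assoc,
      hf _ _ (gel_mem_erase hn2 hE z b hp)]
    simpa [diam, ← hz'] using hmul (x, (0 : F)) ((0 : F), b)
  · have hp : Pat E (1 + Matrix.single (succC y) y x) := by
      simpa [diam, ← hy'] using hpat (x, 0)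
    show g (a * gel R t hE (hpat (x, b))) = g (a * gel R t hE (hpat (0, b)))
    rw [← gel_mul hE (hpat (0, b)) hp (hpat (x, b)), ← mul_assoc,
      hg _ _ (gel_mem_erase hn2 hE y x hp)]
    simpa [diam, ← hy'] using hmul ((0 : F), b) (x, (0 : F))

lemma rank_two_coset (hn : 4 ≤ n) (ht : t ≠ 0) {lam : ℝ} (hlam : 0 < lam)
    (hq : 1 ≤ lam ^ 2 * Fintype.card F) {y z : Fin n} (hyz : y ≠ z)
    (hEeq : E = (univ.erase y).erase z)
    [Fintype (inter (hyp F n R t) E)] (f g : Gam F n R t → ℝ)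
    (hf : ∀ a, ∀ u ∈ inter (hyp F n R t) (univ.erase z), f (a * u) = f a)
    (hg : ∀ a, ∀ u ∈ inter (hyp F n R t) (univ.erase y), g (a * u) = g a)
    (a : Gam F n R t)
    (hf0 : ∑ u : inter (hyp F n R t) E, f (a * (u : Gam F n R t)) = 0)
    (hg0 : ∑ u : inter (hyp F n R t) E, g (a * (u : Gam F n R t)) = 0) :
    ∑ u : inter (hyp F n R t) E, f (a * (u : Gam F n R t)) * g (a * (u : Gam F n R t)) ≤
      lam * (∑ u : inter (hyp F n R t) E, f (a * (u : Gam F n R t)) ^ 2 +
        ∑ u : inter (hyp F n R t) E, g (a * (u : Gam F n R t)) ^ 2) / 2 := by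
  rcases eq_or_ne z (succC y) with h | h
  · exact coset_adjacent hn ht hlam hq hyz h hEeq f g hf hg a hg0
  rcases eq_or_ne y (succC z) with h' | h'
  · refine le_of_eq_of_le (sum_congr rfl fun u _ => mul_comm _ _) ?_
    refine (coset_adjacent hn ht hlam hq hyz.symm h'
      (hEeq.trans erase_right_comm) g f hg hf a hf0).trans_eq ?_
    rw [add_comm]
  · rw [coset_apart hn ht hyz h h' hEeq f g hf hg a hg0]
    positivity

/-- The spectral bound. -/
theorem rankTwoLam (hn : 4 ≤ n) (ht : t ≠ 0) {lam : ℝ} (hlam : 0 < lam)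
    (hq : 1 ≤ lam ^ 2 * Fintype.card F) : RankTwoLam (hyp F n R t) lam := by
  intro _ y z hyz f g hf hg h0
  have := Fintype.ofFinite (inter (hyp F n R t) ((univ.erase y).erase z))
  set K := inter (hyp F n R t) ((univ.erase y).erase z)
  have hpos : (0 : ℝ) < Fintype.card K := Nat.cast_pos.2 Fintype.card_pos
  have h := sum_le_sum fun (a : Gam F n R t) (_ : a ∈ univ) =>
    rank_two_coset hn ht hlam hq hyz rfl f g hf hg a (h0 a).1 (h0 a).2
  rw [← sum_div, ← mul_sum, sum_add_distrib, sum_inter_eq K fun v => f v * g v,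
    sum_inter_eq K fun v => f v ^ 2, sum_inter_eq K fun v => g v ^ 2] at h
  rw [← mul_le_mul_iff_right₀ hpos]
  linarith

end Groups

theorem rankTwo : RankTwoStmt := by
  intro n hn lam hlam
  refine ⟨⌈1 / lam ^ 2⌉₊ + 1, fun p _ hp m hm => ?_⟩
  have ht : tm p m ≠ 0 := tm_ne_zero (p := p) hm
  refine ⟨generated_hyp ht, rankTwoLam hn ht hlam ?_⟩
  rw [ZMod.card, ← div_le_iff₀' (by positivity)]
  exact le_trans (Nat.le_ceil _) (by exact_mod_cast (Nat.le_succ _).trans hp)

end Vale.Agent.P067.Alld.RankTwo
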